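import Mathlib

/-! P308: perfect and near-perfect matchings of connected claw-free graphs. -/

namespace Vale.Agent.P308

open Finset

variable {V : Type} [Fintype V] [DecidableEq V]

/-- matchings of `G` as involutions: `x` is matched with `m x` if `m x ≠ x`, uncovered if
`m x = x` -/
def IsMt (G : SimpleGraph V) (m : V → V) : Prop :=
  (∀ x, m (m x) = x) ∧ ∀ x, m x ≠ x → G.Adj x (m x)

/-- the uncovered vertices -/
def holes (m : V → V) : Finset V := univ.filter fun x => m x = x

open Classical in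
/-- number of perfect matchings -/
noncomputable def perf (G : SimpleGraph V) : ℕ :=
  (univ.filter fun m : V → V => IsMt G m ∧ holes m = ∅).card

open Classical in
/-- number of near-perfect matchings (exactly two uncovered vertices) -/
noncomputable def nearPerf (G : SimpleGraph V) : ℕ :=
  (univ.filter fun m : V → V => IsMt G m ∧ (holes m).card = 2).card

/-- no induced star with three leaves -/
def ClawFree (G : SimpleGraph V) : Prop :=
  ∀ w a b c, G.Adj w a → G.Adj w b → G.Adj w c → a ≠ b → a ≠ c → b ≠ c →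
    G.Adj a b ∨ G.Adj a c ∨ G.Adj b c

/-- match `t` with the uncovered vertex `u`, uncovering `m t` -/
def R (u t : V) (m : V → V) : V → V :=
  fun x => if x = m t then m t else if x = t then u else if x = u then t else m x

theorem mem_holes {m : V → V} {x : V} : x ∈ holes m ↔ m x = x := by simp [holes]

theorem R_spec {G : SimpleGraph V} {m : V → V} (hm : IsMt G m) {u t : V} (hu : m u = u)
    (hut : G.Adj u t) (ht : m t ≠ t) :
    IsMt G (R u t m) ∧ (∀ x, R u t m x = x ↔ x = m t ∨ (m x = x ∧ x ≠ u)) ∧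
      R u t m t = u ∧ R (m t) t (R u t m) = m := by
  have hne : u ≠ t := hut.ne
  have hmt : m (m t) = t := hm.1 t
  have hmtu : m t ≠ u := fun h => hne (by rw [← h, hmt] at hu; rw [← h]; exact hu.symm)
  have hRt : R u t m t = u := by simp [R, Ne.symm ht]
  have hRu : R u t m u = t := by simp [R, Ne.symm hmtu, hne]
  have hRm : R u t m (m t) = m t := by simp [R]
  have hRo : ∀ x, x ≠ m t → x ≠ t → x ≠ u → R u t m x = m x := by
    intro x h1 h2 h3; simp [R, h1, h2, h3]
  have hmx : ∀ x, x ≠ m t → x ≠ t → x ≠ u → m x ≠ m t ∧ m x ≠ t ∧ m x ≠ u := by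
    intro x h1 h2 h3
    refine ⟨fun h => h2 ?_, fun h => h1 ?_, fun h => h3 ?_⟩
    · rw [← hm.1 x, h, hm.1]
    · rw [← hm.1 x, h]
    · rw [← hm.1 x, h, hu]
  refine ⟨⟨?_, ?_⟩, ?_, hRt, ?_⟩
  · intro x
    by_cases h1 : x = m t
    · rw [h1, hRm, hRm]
    by_cases h2 : x = t
    · rw [h2, hRt, hRu]
    by_cases h3 : x = u
    · rw [h3, hRu, hRt]
    obtain ⟨a, b, c⟩ := hmx x h1 h2 h3
    rw [hRo x h1 h2 h3, hRo (m x) a b c, hm.1]
  · intro x hx
    by_cases h1 : x = m t
    · rw [h1, hRm] at hx; exact absurd rfl hx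
    by_cases h2 : x = t
    · rw [h2, hRt]; exact hut.symm
    by_cases h3 : x = u
    · rw [h3, hRu]; exact hut
    rw [hRo x h1 h2 h3] at hx ⊢
    exact hm.2 x hx
  · intro x
    by_cases h1 : x = m t
    · rw [h1, hRm]; simp
    by_cases h2 : x = t
    · rw [h2, hRt]
      constructor
      · intro h; exact absurd h hne
      · rintro (h | h)
        · exact absurd h.symm ht
        · exact absurd h.1 ht
    by_cases h3 : x = u
    · rw [h3, hRu]
      constructor
      · intro h; exact absurd h.symm hne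
      · rintro (h | h)
        · exact absurd h.symm hmtu
        · exact absurd rfl h.2
    rw [hRo x h1 h2 h3]
    constructor
    · intro h; exact Or.inr ⟨h, h3⟩
    · rintro (h | h)
      · exact absurd h h1
      · exact h.1
  · funext x
    have e : R (m t) t (R u t m) x = if x = R u t m t then R u t m t else
        if x = t then m t else if x = m t then t else R u t m x := rfl
    rw [e, hRt]
    by_cases h3 : x = u
    · rw [if_pos h3, h3, hu]
    rw [if_neg h3]
    by_cases h2 : x = t
    · rw [if_pos h2, h2]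
    rw [if_neg h2]
    by_cases h1 : x = m t
    · rw [if_pos h1, h1, hmt]
    rw [if_neg h1, hRo x h1 h2 h3]

theorem step_down {G : SimpleGraph V} (hG : G.Connected) {u v : V} {k : ℕ}
    (h : G.dist u v = k + 1) : ∃ w, G.Adj u w ∧ G.dist w v = k := by
  obtain ⟨p, hp⟩ := hG.exists_walk_length_eq_dist u v
  rw [h] at hp
  cases p with
  | nil => simp at hp
  | @cons _ w _ hw q =>
    refine ⟨w, hw, ?_⟩
    have h1 : G.dist w v ≤ q.length := SimpleGraph.dist_le q
    have h2 : q.length = k := by simpa using hp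
    have h3 : G.dist u v ≤ G.dist u w + G.dist w v := hG.dist_triangle
    have h4 : G.dist u w = 1 := SimpleGraph.dist_eq_one_iff_adj.mpr hw
    omega

theorem move {G : SimpleGraph V} (hG : G.Connected) (hc : ClawFree G) {u v : V} {k : ℕ}
    (hk : 1 ≤ k) (h : G.dist u v = k + 1) {m : V → V} (hm : IsMt G m)
    (hh : ∀ x, m x = x ↔ x = u ∨ x = v) :
    ∃ t, G.Adj u t ∧ m t ≠ t ∧ m t ≠ v ∧ G.dist (m t) v ≤ k := by
  obtain ⟨w, huw, hwv⟩ := step_down hG h
  obtain ⟨j, rfl⟩ : ∃ j, k = j + 1 := ⟨k - 1, by omega⟩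
  obtain ⟨z, hwz, hzv⟩ := step_down hG hwv
  have hwne : w ≠ v := by
    rintro rfl
    rw [SimpleGraph.dist_self] at hwv
    omega
  have hmw : m w ≠ w := by
    intro h1
    rcases (hh w).mp h1 with h2 | h2
    · exact huw.ne h2.symm
    · exact hwne h2
  have hmwu : m w ≠ u := by
    intro h1
    have h2 := hm.1 w
    rw [h1, (hh u).mpr (Or.inl rfl)] at h2
    exact huw.ne h2
  have hmwv : m w ≠ v := by
    intro h1
    have h2 := hm.1 w
    rw [h1, (hh v).mpr (Or.inr rfl)] at h2
    exact hwne h2.symm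
  by_cases hA : G.Adj u (m w)
  · refine ⟨m w, hA, ?_, ?_, ?_⟩
    · rw [hm.1]; exact Ne.symm hmw
    · rw [hm.1]; exact hwne
    · rw [hm.1, hwv]
  · refine ⟨w, huw, hmw, hmwv, ?_⟩
    by_cases hz : m w = z
    · rw [hz, hzv]; omega
    have huz : u ≠ z := by
      rintro rfl
      omega
    rcases hc w u z (m w) huw.symm hwz (hm.2 w hmw) huz (Ne.symm hmwu) (Ne.symm hz) with h1 | h1 | h1
    · have h3 : G.dist u v ≤ G.dist u z + G.dist z v := hG.dist_triangle
      have h4 : G.dist u z = 1 := SimpleGraph.dist_eq_one_iff_adj.mpr h1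
      omega
    · exact absurd h1 hA
    · have h3 : G.dist (m w) v ≤ G.dist (m w) z + G.dist z v := hG.dist_triangle
      have h4 : G.dist (m w) z = 1 := SimpleGraph.dist_eq_one_iff_adj.mpr h1.symm
      omega

open Classical in
/-- near-perfect matchings with holes `v` and `u`, at distance at most `k` -/
noncomputable def S (G : SimpleGraph V) (v : V) (k : ℕ) : Finset (V × (V → V)) :=
  univ.filter fun p => IsMt G p.2 ∧ (∀ x, p.2 x = x ↔ x = p.1 ∨ x = v) ∧ p.1 ≠ v ∧ G.dist p.1 v ≤ k

theorem mem_S {G : SimpleGraph V} {v : V} {k : ℕ} {p : V × (V → V)} :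
    p ∈ S G v k ↔ IsMt G p.2 ∧ (∀ x, p.2 x = x ↔ x = p.1 ∨ x = v) ∧ p.1 ≠ v ∧ G.dist p.1 v ≤ k := by
  simp [S]

theorem S_one {G : SimpleGraph V} (hG : G.Connected) (v : V) : (S G v 1).card ≤ perf G := by
  classical
  unfold perf
  let P : V × (V → V) → (V → V) := fun p x => if x = p.1 then v else if x = v then p.1 else p.2 x
  apply Finset.card_le_card_of_injOn P
  · intro p hp
    rw [Finset.mem_coe, mem_S] at hp
    obtain ⟨hm, hh, hne, hd⟩ := hp
    have hd0 : G.dist p.1 v ≠ 0 := fun h => hne (hG.dist_eq_zero_iff.mp h)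
    have hadj : G.Adj p.1 v := SimpleGraph.dist_eq_one_iff_adj.mp (by omega)
    have h1 : P p p.1 = v := by simp [P]
    have h2 : P p v = p.1 := by simp [P, Ne.symm hne]
    have h3 : ∀ x, x ≠ p.1 → x ≠ v → P p x = p.2 x := by
      intro x ha hb; simp [P, ha, hb]
    have h4 : ∀ x, x ≠ p.1 → x ≠ v → p.2 x ≠ p.1 ∧ p.2 x ≠ v ∧ p.2 x ≠ x := by
      intro x ha hb
      refine ⟨fun h => ?_, fun h => ?_, fun h => ?_⟩
      · apply ha; rw [← hm.1 x, h]; exact (hh p.1).mpr (Or.inl rfl)
      · apply hb; rw [← hm.1 x, h]; exact (hh v).mpr (Or.inr rfl)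
      · rcases (hh x).mp h with h5 | h5
        · exact ha h5
        · exact hb h5
    rw [Finset.mem_coe, Finset.mem_filter]
    refine ⟨Finset.mem_univ _, ⟨?_, ?_⟩, ?_⟩
    · intro x
      by_cases ha : x = p.1
      · rw [ha, h1, h2]
      by_cases hb : x = v
      · rw [hb, h2, h1]
      obtain ⟨a, b, _⟩ := h4 x ha hb
      rw [h3 x ha hb, h3 _ a b, hm.1]
    · intro x hx
      by_cases ha : x = p.1
      · rw [ha, h1]; exact hadj
      by_cases hb : x = v
      · rw [hb, h2]; exact hadj.symm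
      rw [h3 x ha hb] at hx ⊢
      exact hm.2 x hx
    · rw [Finset.eq_empty_iff_forall_notMem]
      intro x hx
      rw [mem_holes] at hx
      by_cases ha : x = p.1
      · rw [ha, h1] at hx; exact hne hx.symm
      by_cases hb : x = v
      · rw [hb, h2] at hx; exact hne hx
      rw [h3 x ha hb] at hx
      exact (h4 x ha hb).2.2 hx
  · intro p hp q hq hpq
    rw [Finset.mem_coe, mem_S] at hp hq
    have hpv : P p v = p.1 := by simp [P, Ne.symm hp.2.2.1]
    have hqv : P q v = q.1 := by simp [P, Ne.symm hq.2.2.1]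
    have h1 : p.1 = q.1 := by rw [← hpv, ← hqv, hpq]
    refine Prod.ext h1 ?_
    funext x
    by_cases ha : x = p.1
    · rw [(hp.2.1 x).mpr (Or.inl ha), (hq.2.1 x).mpr (Or.inl (ha.trans h1))]
    by_cases hb : x = v
    · rw [(hp.2.1 x).mpr (Or.inr hb), (hq.2.1 x).mpr (Or.inr hb)]
    have h2 : P p x = p.2 x := by simp [P, ha, hb]
    have h3 : P q x = q.2 x := by simp [P, h1 ▸ ha, hb]
    rw [← h2, ← h3, hpq]

theorem S_step {G : SimpleGraph V} [DecidableRel G.Adj] (hG : G.Connected) (hc : ClawFree G)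
    (Δ : ℕ) (hΔ : ∀ x, G.degree x ≤ Δ) (v : V) (k : ℕ) (hk : 1 ≤ k) :
    (S G v (k + 1)).card ≤ (Δ + 1) * (S G v k).card := by
  classical
  have hch : ∀ p : V × (V → V), p ∈ S G v (k + 1) → G.dist p.1 v = k + 1 →
      ∃ t, G.Adj p.1 t ∧ p.2 t ≠ t ∧ p.2 t ≠ v ∧ G.dist (p.2 t) v ≤ k := by
    intro p hp hd
    rw [mem_S] at hp
    exact move hG hc hk hd hp.1 hp.2.1
  let T : V × (V → V) → V := fun p =>
    if h : p ∈ S G v (k + 1) ∧ G.dist p.1 v = k + 1 then (hch p h.1 h.2).choose else v
  have hT : ∀ p, p ∈ S G v (k + 1) → G.dist p.1 v = k + 1 →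
      G.Adj p.1 (T p) ∧ p.2 (T p) ≠ T p ∧ p.2 (T p) ≠ v ∧ G.dist (p.2 (T p)) v ≤ k := by
    intro p h1 h2
    have e : T p = (hch p h1 h2).choose := by simp only [T]; rw [dif_pos ⟨h1, h2⟩]
    rw [e]
    exact (hch p h1 h2).choose_spec
  let Φ : V × (V → V) → V × (V → V) := fun p =>
    if G.dist p.1 v = k + 1 then (p.2 (T p), R p.1 (T p) p.2) else p
  apply Finset.card_le_mul_card_image_of_maps_to (f := Φ)
  · intro p hp
    by_cases hd : G.dist p.1 v = k + 1
    · have e : Φ p = (p.2 (T p), R p.1 (T p) p.2) := if_pos hd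
      obtain ⟨h1, h2, h3, h4⟩ := hT p hp hd
      rw [mem_S] at hp
      have hs := R_spec hp.1 ((hp.2.1 p.1).mpr (Or.inl rfl)) h1 h2
      rw [e, mem_S]
      refine ⟨hs.1, fun x => ?_, h3, h4⟩
      rw [hs.2.1 x]
      constructor
      · rintro (h | h)
        · exact Or.inl h
        · rcases (hp.2.1 x).mp h.1 with h5 | h5
          · exact absurd h5 h.2
          · exact Or.inr h5
      · rintro (h | h)
        · exact Or.inl h
        · exact Or.inr ⟨(hp.2.1 x).mpr (Or.inr h), fun h5 => hp.2.2.1 (h5.symm.trans h)⟩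
    · have e : Φ p = p := if_neg hd
      rw [e]
      rw [mem_S] at hp ⊢
      exact ⟨hp.1, hp.2.1, hp.2.2.1, by have := hp.2.2.2; omega⟩
  · intro y _
    have hsub : (S G v (k + 1)).filter (fun p => Φ p = y) ⊆
        insert y ((G.neighborFinset y.1).image fun t => (y.2 t, R y.1 t y.2)) := by
      intro p hp
      rw [Finset.mem_filter] at hp
      rw [Finset.mem_insert, Finset.mem_image]
      by_cases hd : G.dist p.1 v = k + 1
      · right
        have e : Φ p = (p.2 (T p), R p.1 (T p) p.2) := if_pos hd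
        obtain ⟨h1, h2, _, _⟩ := hT p hp.1 hd
        have hpS := mem_S.mp hp.1
        have hs := R_spec hpS.1 ((hpS.2.1 p.1).mpr (Or.inl rfl)) h1 h2
        have hy : y = (p.2 (T p), R p.1 (T p) p.2) := by rw [← hp.2, e]
        refine ⟨T p, ?_, ?_⟩
        · rw [SimpleGraph.mem_neighborFinset, hy]
          exact (hpS.1.2 (T p) h2).symm
        · rw [hy]
          exact Prod.ext hs.2.2.1 hs.2.2.2
      · left
        have e : Φ p = p := if_neg hd
        rw [← hp.2, e]
    calc ((S G v (k + 1)).filter (fun p => Φ p = y)).card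
        ≤ (insert y ((G.neighborFinset y.1).image fun t => (y.2 t, R y.1 t y.2))).card :=
          Finset.card_le_card hsub
      _ ≤ ((G.neighborFinset y.1).image fun t => (y.2 t, R y.1 t y.2)).card + 1 :=
          Finset.card_insert_le _ _
      _ ≤ (G.neighborFinset y.1).card + 1 := by
          have := Finset.card_image_le (s := G.neighborFinset y.1)
            (f := fun t => (y.2 t, R y.1 t y.2))
          omega
      _ ≤ Δ + 1 := by
          have := hΔ y.1
          rw [← SimpleGraph.card_neighborFinset_eq_degree] at this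
          omega

theorem S_le {G : SimpleGraph V} [DecidableRel G.Adj] (hG : G.Connected) (hc : ClawFree G)
    (Δ : ℕ) (hΔ : ∀ x, G.degree x ≤ Δ) (v : V) (k : ℕ) :
    (S G v (k + 1)).card ≤ (Δ + 1) ^ k * perf G := by
  induction k with
  | zero => simpa using S_one hG v
  | succ k ih =>
    calc (S G v (k + 1 + 1)).card ≤ (Δ + 1) * (S G v (k + 1)).card :=
          S_step hG hc Δ hΔ v (k + 1) (by omega)
      _ ≤ (Δ + 1) * ((Δ + 1) ^ k * perf G) := Nat.mul_le_mul_left _ ih
      _ = (Δ + 1) ^ (k + 1) * perf G := by ring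

theorem near_le {G : SimpleGraph V} [DecidableRel G.Adj] (hG : G.Connected) (hc : ClawFree G)
    (Δ : ℕ) (hΔ : ∀ x, G.degree x ≤ Δ) (k : ℕ) (hD : ∀ u v, G.dist u v ≤ k + 1) :
    2 * nearPerf G ≤ Fintype.card V * ((Δ + 1) ^ k * perf G) := by
  classical
  have h1 : 2 * nearPerf G = ∑ v : V,
      (univ.filter fun m : V → V => (IsMt G m ∧ (holes m).card = 2) ∧ v ∈ holes m).card := by
    have e : ∀ v : V, (univ.filter fun m : V → V =>
        (IsMt G m ∧ (holes m).card = 2) ∧ v ∈ holes m).card
        = ∑ m ∈ univ.filter (fun m : V → V => IsMt G m ∧ (holes m).card = 2),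
          if v ∈ holes m then 1 else 0 := by
      intro v
      rw [← Finset.sum_filter, Finset.filter_filter, Finset.card_eq_sum_ones]
    rw [Finset.sum_congr rfl (fun v _ => e v), Finset.sum_comm]
    unfold nearPerf
    rw [mul_comm, Finset.card_eq_sum_ones, Finset.sum_mul]
    apply Finset.sum_congr rfl
    intro m hm
    rw [Finset.mem_filter] at hm
    rw [← Finset.sum_filter, ← Finset.card_eq_sum_ones]
    have : (univ.filter fun v => v ∈ holes m) = holes m := by ext; simp
    rw [this, hm.2.2, one_mul]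
  rw [h1]
  have h2 : ∀ v : V, (univ.filter fun m : V → V =>
      (IsMt G m ∧ (holes m).card = 2) ∧ v ∈ holes m).card ≤ (Δ + 1) ^ k * perf G := by
    intro v
    refine le_trans ?_ (S_le hG hc Δ hΔ v k)
    have hu : ∀ m : V → V, ((IsMt G m ∧ (holes m).card = 2) ∧ v ∈ holes m) →
        ∃ u, u ≠ v ∧ holes m = {u, v} := by
      intro m hm
      obtain ⟨a, b, hab, he⟩ := Finset.card_eq_two.mp hm.1.2
      have hv := hm.2
      rw [he, Finset.mem_insert, Finset.mem_singleton] at hv
      rcases hv with h | h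
      · exact ⟨b, by rw [h]; exact Ne.symm hab, by rw [he, h, Finset.pair_comm]⟩
      · exact ⟨a, by rw [h]; exact hab, by rw [he, h]⟩
    let U : (V → V) → V := fun m =>
      if h : ((IsMt G m ∧ (holes m).card = 2) ∧ v ∈ holes m) then (hu m h).choose else v
    apply Finset.card_le_card_of_injOn (fun m => (U m, m))
    · intro m hm
      rw [Finset.mem_coe, Finset.mem_filter] at hm
      have e : U m = (hu m hm.2).choose := by simp only [U]; rw [dif_pos hm.2]
      have hs := (hu m hm.2).choose_spec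
      rw [Finset.mem_coe, mem_S]
      refine ⟨hm.2.1.1, fun x => ?_, ?_, hD _ _⟩
      · simp only
        rw [← mem_holes, hs.2, e]
        simp
      · simp only
        rw [e]; exact hs.1
    · intro m _ m' _ h
      exact congrArg Prod.snd h
  calc ∑ v : V, (univ.filter fun m : V → V =>
      (IsMt G m ∧ (holes m).card = 2) ∧ v ∈ holes m).card
      ≤ ∑ _v : V, (Δ + 1) ^ k * perf G := Finset.sum_le_sum (fun v _ => h2 v)
    _ = Fintype.card V * ((Δ + 1) ^ k * perf G) := by
        rw [Finset.sum_const, smul_eq_mul, Finset.card_univ]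

end Vale.Agent.P308
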